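import Vale.Agent.P022G.Pres.Defs

/-!
# P022G, the cohomological input of the presentation (statements)
-/

set_option linter.all false

noncomputable section

namespace Vale.Agent.P022G.Obs

open NumberField
open Vale.Agent.P022
open Vale.Agent.P027M.S (Inert mx)
open Vale.Agent.P022D.Sel (M2 IsDec)
open Vale.Agent.P022E.GW (Ov Ch Cb Z2)
open Vale.Agent.P022G.Pres (COH Un)

/-- removal of the ramification outside `T` on `H` -/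
def FX (H : Subgroup GQ) (T : Finset ℕ) : Prop :=
  ∀ (F : Type) [Field F] [Finite F] [CharP F 2] (w : GQ → F),
  (∃ U : Subgroup GQ, IsOpen (U : Set GQ) ∧ ∀ σ ∈ H ⊓ U, w σ = 0) →
  (∀ l ∉ T, ∀ P : Ideal (𝓞 Qb), Ov l P → ∀ i ∈ H, Inert P i →
    (∀ i' ∈ H, Inert P i' → w (i * i') = w i + w i') ∧ ∀ g ∈ H, w (g * i * g⁻¹) = w i) →
  ∃ b : GQ → F, Ch H b ∧ ∀ l ∉ T, ∀ P : Ideal (𝓞 Qb), Ov l P → ∀ i ∈ H, Inert P i → b i = w i

/-- the local global principle over `ℚ` with the place `2` omitted -/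
def SC2 : Prop := ∀ (F : Type) [Field F] [Finite F] [CharP F 2] (z : GQ → GQ → F), Z2 ⊤ z →
  (∀ l ≠ 2, ∀ D : Subgroup GQ, IsDec l (D : Set GQ) → Cb (⊤ ⊓ D) z) → Cb ⊤ z

variable {F : Type} [Field F]

/-- diagonal on `H`, antidiagonal outside -/
structure Dz (ρ : GQ →* GL (Fin 2) F) (H : Subgroup GQ) : Prop where
  dg : ∀ g ∈ H, mx ρ g 0 1 = 0 ∧ mx ρ g 1 0 = 0
  ad : ∀ g ∉ H, mx ρ g 0 0 = 0 ∧ mx ρ g 1 1 = 0
  opn : IsOpen {g : GQ | ρ g = 1}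

/-- `n` bounds the number of invariants of `D` in the matrices with zero diagonal -/
def Nd (ρ : GQ →* GL (Fin 2) F) (H D : Subgroup GQ) (n : ℕ) : Prop :=
  2 ≤ n ∨ (1 ≤ n ∧ ∃ g ∈ D, g ∉ H) ∨ ∃ g ∈ D, g ∈ H ∧ mx ρ g 0 0 ≠ mx ρ g 1 1

/-- **the cohomological input**: `B` = the places with exact local lifts -/
def OBS : Prop := ∀ (F : Type) [Field F] [Finite F] [CharP F 2] (ρ : GQ →* GL (Fin 2) F)
  (H : Subgroup GQ) (T B : Finset ℕ) (D : ℕ → Subgroup GQ) (n : ℕ → ℕ) (DD : Set (Subgroup GQ))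
  (N : ℕ), Dz ρ H → FX ρ.ker T → FX ⊤ T → 0 ∈ T → 0 ∈ B → (∀ l ∈ T, IsDec l (D l : Set GQ)) →
  (∀ l ∈ T, l ∈ B → D l ∈ DD) → (∀ l ∈ T, l ∉ B → Nd ρ H (D l) (n l)) →
  ∑ l ∈ T \ B, n l + ((T \ B).erase 2).card ≤ N → COH ρ T DD N

end Vale.Agent.P022G.Obs
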