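import Vale.Agent.P022G.Obs.Main

/-!
# P022G, the local global principle with the place `2` omitted
-/

set_option linter.all false

noncomputable section

namespace Vale.Agent.P022G.Obs

open NumberField
open Vale.Agent.P022 Vale.Agent.P022.H443
open Vale.Agent.P027M.S (Inert mx)
open Vale.Agent.P022D.Sel (M2 IsDec)
open Vale.Agent.P022D.L2c (Hm Cob IsZ2 cup up)
open Vale.Agent.P022D.W (dec)
open Vale.Agent.P022E.GW
open Vale.Agent.P022E.GW.Kc (kq)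
open scoped Pointwise

namespace S2

variable (F : Type) [Field F] [CharP F 2]

/-- the character of `-1` -/
def u : GQ → F := Gy.ue F (kq (-1))

/-- the character of `3` -/
def v : GQ → F := Gy.ue F (kq ((3 : ℕ) : Qb))

theorem chu (D : Subgroup GQ) : Ch D (u F) :=
  Gy.ue_hm (X := D) (One.ch_kq D fun g _ => by rw [map_neg, map_one])

theorem chv (D : Subgroup GQ) : Ch D (v F) :=
  Gy.ue_hm (X := D) (One.ch_kq D fun g _ => map_natCast g 3)

theorem n2 {p : ℕ} {P : Ideal (𝓞 Qb)} (h : Ov p P) {q : ℕ} (hq : q.Prime) (n : p ≠ q) :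
    (q : 𝓞 Qb) ∉ P := fun k => n (One.two_pr h.1 hq h.2.1 h.2.2 k)

theorem u0 {p : ℕ} {P : Ideal (𝓞 Qb)} (h : Ov p P) (n : p ≠ 2) {g : GQ} (hg : Inert P g) :
    u F g = 0 := by
  have := Kc.kq_unit (c := -1) h.2.1 (by exact_mod_cast n2 h Nat.prime_two n)
    (fun k => h.2.1.ne_top ((Ideal.eq_top_iff_one _).2 (neg_mem_iff.1 k))) hg (by simp)
  have e : ((-1 : 𝓞 Qb) : Qb) = -1 := by simp
  rw [e] at this
  show up F (kq (-1) g) = 0
  rw [this, map_zero]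

theorem v0 {p : ℕ} {P : Ideal (𝓞 Qb)} (h : Ov p P) (n : p ≠ 2) (n3 : p ≠ 3) {g : GQ}
    (hg : Inert P g) : v F g = 0 := by
  have e : (((3 : ℕ) : 𝓞 Qb) : Qb) = (3 : ℕ) := map_natCast (algebraMap (𝓞 Qb) Qb) 3
  have := Kc.kq_unit (c := ((3 : ℕ) : 𝓞 Qb)) h.2.1 (by exact_mod_cast n2 h Nat.prime_two n)
    (n2 h Nat.prime_three n3) hg (by rw [e, map_natCast])
  rw [e] at this
  show up F (kq _ g) = 0
  rw [this, map_zero]

theorem u1 {P : Ideal (𝓞 Qb)} (h : Ov 3 P) {φ : GQ} (hφ : Fb 3 P φ) : u F φ = 1 := by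
  obtain ⟨X, hX⟩ : ∃ X : 𝓞 Qb, (X : Qb) = Kc.rt (-1) :=
    ⟨⟨Kc.rt (-1), IsIntegral.of_pow (n := 2) two_pos (by
      rw [Kc.rt_sq]; exact isIntegral_one.neg)⟩, rfl⟩
  have e1 : X ^ 2 = -1 := RingOfIntegers.ext (by
    show (X : Qb) ^ 2 = ((-1 : 𝓞 Qb) : Qb)
    rw [hX, Kc.rt_sq]; simp)
  have k : kq (-1) φ = 1 := (Kc.z2 _).resolve_left fun k => by
    have e2 : φ • X = X := RingOfIntegers.ext (by
      show φ (X : Qb) = (X : Qb)
      rw [hX]
      exact (Kc.kq_zero (Kc.rt_sq _) φ).1 k)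
    have e3 := P.mul_mem_left X (hφ X)
    rw [e2, show X * (X - X ^ 3) = -2 by linear_combination (2 - X ^ 2) * e1, neg_mem_iff] at e3
    exact n2 h Nat.prime_two (by norm_num) (by exact_mod_cast e3)
  show up F (kq (-1) φ) = 1
  rw [k, map_one]

theorem v1 {P : Ideal (𝓞 Qb)} {τ : GQ} (hτ : Gn 3 P τ) : v F τ = 1 := by
  have k := (Kc.kq_one (x := ((3 : ℕ) : Qb)) (by norm_num) (Kc.rt_sq _) (map_natCast τ 3)).2
    (hτ.2 _ (Kc.rt_sq _))
  show up F (kq _ τ) = 1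
  rw [k, map_one]

theorem ex_ov {p : ℕ} (hp : p.Prime) : ∃ P, Ov p P :=
  haveI := Fact.mk hp
  ⟨_, hp, P022D.Loc2.PP_prime p, P022D.Loc2.p_mem_PP p⟩

variable {F}

theorem key [Finite F] {z : GQ → GQ → F} (hz : Z2 ⊤ z)
    (h : ∀ l ≠ 2, ∀ D : Subgroup GQ, IsDec l (D : Set GQ) → Cb (⊤ ⊓ D) z) (a : F)
    (k : ∀ D : Subgroup GQ, IsDec 2 (D : Set GQ) → Cb (⊤ ⊓ D) (z - a • cup (u F) (v F))) :
    a = 0 := by
  obtain ⟨P, hP⟩ := ex_ov Nat.prime_three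
  obtain ⟨τ, hτ⟩ := Tg.ex_gn' hP
  obtain ⟨φ, hφ⟩ := P022D.W.exists_phi hP.1 hP.2.1 hP.2.2
  have dd : ∀ {p Q}, Ov p Q → IsDec p (dec Q : Set GQ) := fun hQ =>
    Or.inr ⟨hQ.1, _, hQ.2.1, hQ.2.2, rfl⟩
  have := oneC F ⊤ (z - a • cup (u F) (v F)) Unit (fun _ => 3) (fun _ => P) (fun _ => τ)
    (fun _ => φ) (fun _ => u F) (fun _ => (-a) • v F) isOpen_univ
    (Gy.z2_sub hz (Gy.z2_smul a (Lb.z2_cup (chu F ⊤) (chv F ⊤))))
    (fun _ => ⟨hP, by norm_num, hτ, hφ, le_top⟩) (fun _ _ _ _ _ => rfl)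
    (fun _ => ⟨chu F _, Submodule.smul_mem (Hm F _) _ (chv F _),
      fun g hg => u0 F hP (by norm_num) hg, u1 F hP hφ,
      One.cb_congr (One.cb_mono (le_inf le_top le_rfl) (h 3 (by norm_num) _ (dd hP)))
        fun x _ y _ => by
          simp only [Pi.sub_apply, Pi.smul_apply, cup, smul_eq_mul]; ring⟩)
    (fun D hD => One.cb_congr (h 0 (by norm_num) D hD) fun x _ y hy => by
      have : v F y = 0 := by
        obtain ⟨-, c, hc, e⟩ | ⟨l0, -⟩ := hD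
        · have m : y ∈ ({1, c} : Set GQ) := e ▸ hy.2
          show up F (kq _ y) = 0
          rcases m with rfl | rfl
          · rw [Kc.kq_id, map_zero]
          · rw [OneP.inf 3 hc, map_zero]
        · exact absurd l0 Nat.not_prime_zero
      simp only [Pi.sub_apply, Pi.smul_apply, cup, this, mul_zero, smul_zero, sub_zero])
    (fun p Q hQ n => by
      by_cases p2 : p = 2
      · exact k _ (dd (p2 ▸ hQ))
      by_cases p3 : p = 3
      · subst p3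
        obtain ⟨g, rfl⟩ := P027M.F.Tra.trans hP.1 hP.2.1 hQ.2.1 hP.2.2 hQ.2.2
        exact absurd (fun x => Ideal.smul_mem_pointwise_smul_iff.symm) (n () g trivial)
      · exact One.cb_sub (h p p2 _ (dd hQ)) (Submodule.smul_mem (Cob F _) a
          (Lb.cb_unr unrC isOpen_univ hQ (chu F _) (chv F _) (fun i _ hi => u0 F hQ p2 hi)
            fun i _ hi => v0 F hQ p2 p3 hi)))
  simpa [v1 F hτ] using this

end S2

open S2 in
/-- **row SC2** -/
theorem sc2' : SC2 := by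
  intro F _ _ _ z hz h
  obtain ⟨P, hP⟩ := ex_ov Nat.prime_two
  have hD : IsDec 2 (dec P : Set GQ) := Or.inr ⟨hP.1, _, hP.2.1, hP.2.2, rfl⟩
  obtain ⟨I, i0, i1, -⟩ := ex_I F (V := ⊤) isOpen_univ two_ne_zero hD
  have zs := Lb.z2_cup (chu F ⊤) (chv F ⊤)
  have all : ∀ y, Z2 ⊤ y → I y = 0 → ∀ D : Subgroup GQ, IsDec 2 (D : Set GQ) → Cb (⊤ ⊓ D) y :=
    fun y hy k D h => by
      obtain ⟨g, hg⟩ := Lb.dec_cj hD h
      refine cj F ⊤ (dec P) D g _ trivial (fun x => ?_) hy (i1 y (One.z2_mono inf_le_left hy) k)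
      have := hg (g * x * g⁻¹)
      rw [show g⁻¹ * (g * x * g⁻¹) * g = x by group] at this
      exact this.symm
  have z0 : Z2 ⊤ (0 : GQ → GQ → F) := Gy.cob_z2 (zero_mem (Cob F _))
  have s0 : I (cup (u F) (v F)) ≠ 0 := fun e => one_ne_zero (key z0
    (fun _ _ _ _ => zero_mem (Cob F _)) 1 (all _ (Gy.z2_sub z0 (Gy.z2_smul 1 zs)) (by
      rw [map_sub, map_smul, e, map_zero, smul_zero, sub_zero])))
  have a0 := key hz h (I z / I (cup (u F) (v F))) (all _ (Gy.z2_sub hz (Gy.z2_smul _ zs)) (by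
    rw [map_sub, map_smul, smul_eq_mul, div_mul_cancel₀ _ s0, sub_self]))
  refine hasseCC F ⊤ z isOpen_univ hz fun l D hl => ?_
  by_cases l2 : l = 2
  · exact all z hz ((div_eq_zero_iff.1 a0).resolve_right s0) D (l2 ▸ hl)
  · exact h l l2 D hl

/-- **row OBS** -/
theorem obs : OBS := obs_of sc2'

end Vale.Agent.P022G.Obs
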