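import Vale.Agent.P022G.Obs.Tr
import Vale.Agent.P022E.GW.Linv
import Vale.Agent.P022E.GW.Nil
import Vale.Agent.P022E.GW.Syl
import Vale.Agent.P022E.GW.LbLoc
import Vale.Agent.P022E.GW.LiftH86

/-!
# P022G, the local invariants of a two cocycle with values in `ad`
-/

set_option linter.all false

noncomputable section

namespace Vale.Agent.P022G.Obs

open NumberField
open Vale.Agent.P022 Vale.Agent.P022.H443
open Vale.Agent.P027M.S (Inert mx)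
open Vale.Agent.P022D.Sel (M2 IsDec)
open Vale.Agent.P022D.L2c (Hm Cob IsZ2 cup up)
open Vale.Agent.P022D.W (dec)
open Vale.Agent.P022E.GW
open Vale.Agent.P022E.GW.Syl (cc cm cm_cont cb_iff)
open Vale.Agent.P022G.Pres (Zc Bd Cb0)

variable {F : Type} [Field F] [CharP F 2]

/-- the invariant does not see automorphisms -/
theorem inv_cj (F : Type) [Field F] [CharP F 2] [Finite F] {X : Type} [Group X]
    [TopologicalSpace X] [IsTopologicalGroup X] [CompactSpace X] (h : Gy.Lcl X) :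
    ∃ I : (X → X → F) →ₗ[F] F, (∀ y ∈ Cob F X, I y = 0) ∧
      (∀ y, IsZ2 y → I y = 0 → y ∈ Cob F X) ∧
      ∀ φ ψ : X →* X, Continuous φ → Continuous ψ → (∀ x, φ (ψ x) = x) → ∀ y, IsZ2 y →
        I (fun g k => y (φ g) (φ k)) = I y := by
  obtain ⟨I, i0, i1, i2⟩ := Gy.ex_inv F h
  refine ⟨I, i0, i1, fun φ ψ hφ hψ e y hy => ?_⟩
  obtain ⟨a, ha, a0, -⟩ := h.top.2 0 (zero_mem _)
  obtain ⟨b, hb, n⟩ := (h.top.1 a ha a0).1
  obtain ⟨c, m⟩ := Gy.line h ha hb n hy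
  have e1 : cup (Gy.ue F a) (Gy.ue F b) = fun g k => up F (cup a b g k) := by
    funext g k
    simp only [cup, Gy.ue, map_mul]
  have k1 := i0 _ m
  rw [map_sub, map_smul, e1, i2 _ (Gy.z2_cup ha hb) n, sub_eq_zero] at k1
  have k2 := i0 _ (Gy.cob_comp φ hφ m)
  have k3 := i2 _ (Gy.z2_comp φ hφ (Gy.z2_cup ha hb)) fun q => n (by
    have := Gy.cob_comp ψ hψ q
    simpa only [e] using this)
  have e2 : (fun g k => (y - c • cup (Gy.ue F a) (Gy.ue F b)) (φ g) (φ k)) =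
      (fun g k => y (φ g) (φ k)) - c • fun g k => up F (cup a b (φ g) (φ k)) := by
    rw [e1]; rfl
  rw [e2, map_sub, map_smul, k3, sub_eq_zero] at k2
  rw [k1, k2]

theorem ex_I (F : Type) [Field F] [CharP F 2] [Finite F] {V D : Subgroup GQ} [hn : V.Normal]
    (hV : IsOpen (V : Set GQ)) {l : ℕ} (l0 : l ≠ 0) (hD : IsDec l (D : Set GQ)) :
    ∃ I : (GQ → GQ → F) →ₗ[F] F, (∀ y, Cb (V ⊓ D) y → I y = 0) ∧
      (∀ y, Z2 (V ⊓ D) y → I y = 0 → Cb (V ⊓ D) y) ∧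
      ∀ g ∈ D, ∀ y, Z2 (V ⊓ D) y → I (cc F g y) = I y := by
  obtain ⟨h0, -⟩ | ⟨lp, P, p0, p1, e⟩ := hD
  · exact absurd h0 l0
  obtain rfl : D = dec P := SetLike.coe_injective e
  have := galQb
  haveI : CompactSpace (V ⊓ dec P : Subgroup GQ) :=
    isCompact_iff_compactSpace.1 (Unr.closed hV P).isCompact
  obtain ⟨I, i0, i1, i2⟩ := inv_cj F (X := (V ⊓ dec P : Subgroup GQ)) fun W hW =>
    ⟨(Nil.ni_sub lp p0 p1 V hV W hW).1,
      Gy.three_of (lt_of_lt_of_le (by norm_num) (Nil.ni_sub lp p0 p1 V hV W hW).2)⟩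
  let r : (GQ → GQ → F) →ₗ[F] ((V ⊓ dec P : Subgroup GQ) → (V ⊓ dec P : Subgroup GQ) → F) :=
    { toFun := rs (V ⊓ dec P)
      map_add' := fun _ _ => rfl
      map_smul' := fun _ _ => rfl }
  have m : ∀ g ∈ dec P, ∀ x ∈ V ⊓ dec P, g * x * g⁻¹ ∈ V ⊓ dec P := fun g hg x hx =>
    ⟨hn.conj_mem x hx.1 g, (dec P).mul_mem ((dec P).mul_mem hg hx.2) ((dec P).inv_mem hg)⟩
  refine ⟨I ∘ₗ r, fun y hy => i0 _ hy, fun y hy k => i1 _ hy k, fun g hg y hy => ?_⟩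
  exact i2 (cm g (m g hg)) (cm g⁻¹ (m _ (inv_mem hg))) (cm_cont _ _) (cm_cont _ _)
    (fun x => Subtype.ext (by
      show g * (g⁻¹ * x * g⁻¹⁻¹) * g⁻¹ = x
      group)) _ hy

/-- a splitting which is unramified outside `T` -/
theorem fix [Finite F] {V : Subgroup GQ} {T : Finset ℕ} (hF : FX V T) (β : GQ → GQ → F)
    (hc : Cb V β) (h1 : β 1 1 = 0)
    (mem : ∀ l ∉ T, ∀ P, Ov l P → ∀ i, Inert P i → i ∈ V)
    (hi : ∀ l ∉ T, ∀ P, Ov l P → ∀ i, Inert P i → ∀ g, β g i = 0 ∧ β i g = 0) :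
    ∃ w : GQ → F, (∀ p ∈ V, ∀ q ∈ V, w (p * q) = w p + w q + β p q) ∧
      (∃ U : Subgroup GQ, IsOpen (U : Set GQ) ∧ U.Normal ∧ ∀ σ ∈ V, σ ∈ U → w σ = 0) ∧
      Ur T w := by
  classical
  have two : (2 : F) = 0 := CharTwo.two_eq_zero
  obtain ⟨w0, hl, hw⟩ := hc
  let w : GQ → F := fun g => if h : g ∈ V then w0 ⟨g, h⟩ else 0
  have e : ∀ g (h : g ∈ V), w g = w0 ⟨g, h⟩ := fun g h => dif_pos h
  have hw' : ∀ p ∈ V, ∀ q ∈ V, w (p * q) = w p + w q + β p q := fun p hp q hq => by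
    rw [e p hp, e q hq, e _ (V.mul_mem hp hq)]
    exact hw ⟨p, hp⟩ ⟨q, hq⟩
  have w1 : w0 1 = 0 := by
    have := hw 1 1
    rw [mul_one] at this
    have k : rs V β 1 1 = 0 := h1
    rw [k] at this
    linear_combination -this
  obtain ⟨U, hU, hn, hU0⟩ := Rc.near hl
  obtain ⟨b, hb, hbw⟩ := hF F w
    ⟨U, hU, fun σ hσ => by rw [e σ hσ.1, hU0 ⟨σ, hσ.1⟩ hσ.2, w1]⟩
    (fun l hl P hP i hiP h => ⟨fun i' hi' h' => by
        rw [hw' i hiP i' hi', (hi l hl P hP i h i').2, add_zero],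
      fun g hg => by
        obtain ⟨P', hP', k⟩ := Lf86.inert_cj hP g
        have m := mem l hl P' hP' _ (k i h)
        have e1 := hw' _ m g hg
        rw [inv_mul_cancel_right, hw' g hg i hiP, (hi l hl P hP i h g).1,
          (hi l hl P' hP' _ (k i h) g).2] at e1
        linear_combination -e1⟩)
  obtain ⟨W, hW, hn', hV0⟩ := Rc.near hb.1
  have b1 : b 1 = 0 := by
    have := hb.2 1 1
    simp only [mul_one, OneMemClass.coe_one] at this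
    linear_combination -this
  refine ⟨fun g => w g + b g, fun p hp q hq => ?_, ⟨U ⊓ W, hU.inter hW, inferInstance,
    fun σ hσ h => ?_⟩, fun l hl P hP i h => ?_⟩
  · have := hb.2 ⟨p, hp⟩ ⟨q, hq⟩
    simp only [Subgroup.coe_mul] at this
    simp only
    rw [hw' p hp q hq, this]; ring
  · have := hV0 ⟨σ, hσ⟩ h.2
    simp only [OneMemClass.coe_one] at this
    simp only
    rw [e σ hσ, hU0 ⟨σ, hσ⟩ h.1, w1, this, b1, add_zero]
  · simp only
    rw [hbw l hl P hP i (mem l hl P hP i h) h]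
    linear_combination w i * two

variable {ρ : GQ →* GL (Fin 2) F} {H : Subgroup GQ} {T : Finset ℕ} {z : GQ → GQ → M2 F}

/-- an entry of a cochain -/
def en (i j : Fin 2) : (GQ → GQ → M2 F) →ₗ[F] (GQ → GQ → F) where
  toFun z x y := z x y i j
  map_add' _ _ := rfl
  map_smul' _ _ := rfl

theorem lcz (hz : Zc ρ T z) : IsLocallyConstant fun p : GQ × GQ => z p.1 p.2 := by
  obtain ⟨U, -, hU, -, -, h⟩ := hz.inf
  refine (IsLocallyConstant.iff_exists_open _).2 fun p =>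
    ⟨{q | p.1⁻¹ * q.1 ∈ U} ∩ {q | p.2⁻¹ * q.2 ∈ U},
      (hU.preimage (continuous_const.mul continuous_fst)).inter
        (hU.preimage (continuous_const.mul continuous_snd)), ⟨by simp, by simp⟩, fun q hq => ?_⟩
  rw [← mul_inv_cancel_left p.1 q.1, ← mul_inv_cancel_left p.2 q.2, (h _ hq.1 _ _).1,
    (h _ hq.2 _ _).2]

theorem coc (hz : Zc ρ T z) (g h k : GQ) :
    ac ρ g (z h k) + z g (h * k) = z (g * h) k + z g h := hz.coc g h k

theorem lce (hz : Zc ρ T z) (V : Subgroup GQ) (i j : Fin 2) :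
    IsLocallyConstant fun p : V × V => rs V (en i j z) p.1 p.2 :=
  ((lcz hz).comp fun m => m i j).comp_continuous (f := fun p : V × V => ((p.1 : GQ), (p.2 : GQ)))
    (by fun_prop)

theorem z2K (hz : Zc ρ T z) {V : Subgroup GQ} (le : V ≤ ρ.ker) (i j : Fin 2) :
    Z2 V (en i j z) := ⟨lce hz V i j, fun g h k => by
  have := coc hz g h k
  rw [ac_ker _ (le g.2)] at this
  exact congrFun (congrFun this i) j⟩

theorem z2T (hd : Dz ρ H) (hz : Zc ρ T z) (V : Subgroup GQ) : Z2 V (en 0 0 z) :=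
  ⟨lce hz V 0 0, fun g h k => by
    have := congrFun (congrFun (coc hz g h k) 0) 0
    rw [Matrix.add_apply, hd.ac00 _ (hz.tr _ _)] at this
    exact this⟩

theorem cbc (hz : Zc ρ T z) {V : Subgroup GQ} (le : V ≤ ρ.ker) (g : GQ) (i j : Fin 2) :
    Cb V (cc F g (en i j z) + fun x y => ac ρ g (z x y) i j) :=
  ⟨fun x => (z (g * x * g⁻¹) g + z g x) i j,
    (((lcz hz).comp_continuous (f := fun x : V => (g * x * g⁻¹, g)) (by fun_prop)).add
      ((lcz hz).comp_continuous (f := fun x : V => (g, (x : GQ))) (by fun_prop))).comp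
        fun m => m i j,
    fun x y => congrFun (congrFun
      (cjid two_m ρ.ker (ac ρ) ac_ker z (coc hz) g (y := y) (le x.2)) i) j⟩

theorem Dz.rel (hd : Dz ρ H) (g : GQ) (z : GQ → GQ → M2 F) :
    (g ∈ H ∧ (fun x y => ac ρ g (z x y) 0 1) = (mx ρ g 0 0 * mx ρ g⁻¹ 1 1) • en 0 1 z ∧
      (fun x y => ac ρ g (z x y) 1 0) = (mx ρ g 1 1 * mx ρ g⁻¹ 0 0) • en 1 0 z) ∨
    (g ∉ H ∧ (fun x y => ac ρ g (z x y) 0 1) = (mx ρ g 0 1 * mx ρ g⁻¹ 0 1) • en 1 0 z ∧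
      (fun x y => ac ρ g (z x y) 1 0) = (mx ρ g 1 0 * mx ρ g⁻¹ 1 0) • en 0 1 z) := by
  by_cases hg : g ∈ H
  · refine Or.inl ⟨hg, ?_, ?_⟩ <;> funext x y <;> rw [hd.acin hg] <;> rfl
  · refine Or.inr ⟨hg, ?_, ?_⟩ <;> funext x y <;> rw [hd.acout hg] <;> rfl

/-- both entries off the diagonal split on the kernel -/
def Bo (ρ : GQ →* GL (Fin 2) F) (D : Subgroup GQ) (z : GQ → GQ → M2 F) : Prop :=
  Cb (ρ.ker ⊓ D) (en 0 1 z) ∧ Cb (ρ.ker ⊓ D) (en 1 0 z)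

theorem Bo.cj (hd : Dz ρ H) (hz : Zc ρ T z) {D D' : Subgroup GQ} {g : GQ}
    (h : ∀ x, x ∈ D' ↔ g⁻¹ * x * g ∈ D) (b : Bo ρ D z) : Bo ρ D' z := by
  have e : ∀ x, x ∈ ρ.ker ⊓ D ↔ g * x * g⁻¹ ∈ ρ.ker ⊓ D' := fun x => by
    rw [Subgroup.mem_inf, Subgroup.mem_inf, h, show g⁻¹ * (g * x * g⁻¹) * g = x by group]
    refine and_congr_left fun _ => ⟨fun k => Subgroup.Normal.conj_mem inferInstance x k g,
      fun k => ?_⟩
    have := Subgroup.Normal.conj_mem (H := ρ.ker) inferInstance _ k g⁻¹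
    rwa [show g⁻¹ * (g * x * g⁻¹) * g⁻¹⁻¹ = x by group] at this
  have k : ∀ i j, Cb (ρ.ker ⊓ D) (fun x y => ac ρ g (z x y) i j) → Cb (ρ.ker ⊓ D') (en i j z) :=
    fun i j k => (cb_iff g e).1 ((Syl.cb_left k).1 (cbc hz inf_le_left g i j))
  have s : ∀ (c : F) y, Cb (ρ.ker ⊓ D) y → Cb (ρ.ker ⊓ D) (c • y) := fun c y k =>
    Submodule.smul_mem (Cob F _) c k
  rcases hd.rel g z with ⟨-, p, q⟩ | ⟨-, p, q⟩
  · exact ⟨k 0 1 (p ▸ s _ _ b.1), k 1 0 (q ▸ s _ _ b.2)⟩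
  · exact ⟨k 0 1 (p ▸ s _ _ b.2), k 1 0 (q ▸ s _ _ b.1)⟩

theorem bo_of {D : Subgroup GQ} (h : Cb0 ρ D z) : Bo ρ D z := by
  obtain ⟨e, ⟨-, he⟩, hl⟩ := h
  have k : ∀ i j, Cb (ρ.ker ⊓ D) (en i j z) := fun i j =>
    ⟨fun x => e x i j, (hl.comp fun m => m i j).comp_continuous (Gy.inc_cont inf_le_right),
      fun x y => by
        have := he x x.2.2 y y.2.2
        rw [← ac_def, ac_ker _ x.2.1] at this
        exact congrFun (congrFun this i) j⟩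
  exact ⟨k 0 1, k 1 0⟩

theorem sc_of (hd : Dz ρ H) {D : Subgroup GQ} (h : Cb0 ρ D z) : Cb (⊤ ⊓ D) (en 0 0 z) := by
  obtain ⟨e, ⟨ht, he⟩, hl⟩ := h
  refine ⟨fun x => e x 0 0, (hl.comp fun m => m 0 0).comp_continuous (Gy.inc_cont inf_le_right),
    fun x y => ?_⟩
  have := congrFun (congrFun (he x x.2.2 y y.2.2) 0) 0
  rw [← ac_def, Matrix.add_apply, Matrix.add_apply, hd.ac00 _ (ht y y.2.2)] at this
  exact this

/-- the invariants of the entries off the diagonal -/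
theorem ex_J [Finite F] (hd : Dz ρ H) (T : Finset ℕ) {D : Subgroup GQ} {l n : ℕ} (l0 : l ≠ 0)
    (hD : IsDec l (D : Set GQ)) (hn : Nd ρ H D n) :
    ∃ J : Fin n → (GQ → GQ → M2 F) →ₗ[F] F, ∀ z, Zc ρ T z → (∀ j, J j z = 0) → Bo ρ D z := by
  obtain ⟨I, i0, i1, i2⟩ := ex_I F (V := ρ.ker) hd.opn l0 hD
  refine ⟨fun j => if j.1 = 0 then I ∘ₗ en 0 1 else I ∘ₗ en 1 0, fun z hz h => ?_⟩
  suffices k : I (en 0 1 z) = 0 ∧ I (en 1 0 z) = 0 from
    ⟨i1 _ (z2K hz inf_le_left 0 1) k.1, i1 _ (z2K hz inf_le_left 1 0) k.2⟩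
  have r : ∀ g ∈ D, ∀ i j, I (en i j z) = I fun x y => ac ρ g (z x y) i j := fun g hg i j => by
    have := i0 _ (cbc hz (inf_le_left : ρ.ker ⊓ D ≤ _) g i j)
    rwa [map_add, i2 g hg _ (z2K hz inf_le_left i j), CharTwo.add_eq_zero] at this
  rcases hn with hn | ⟨hn, g, hg, k⟩ | ⟨g, hg, k, ne⟩
  · exact ⟨by simpa using h ⟨0, by omega⟩, by simpa using h ⟨1, by omega⟩⟩
  · have a : I (en 0 1 z) = 0 := by simpa using h ⟨0, by omega⟩
    rcases hd.rel g z with ⟨p, -⟩ | ⟨-, -, q⟩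
    · exact absurd p k
    · exact ⟨a, by rw [r g hg, q, map_smul, a, smul_zero]⟩
  · rcases hd.rel g z with ⟨-, p, q⟩ | ⟨p, -⟩
    · obtain ⟨a, b⟩ := hd.in1 k
      have e1 := r g hg 0 1
      have e2 := r g hg 1 0
      rw [p, map_smul, smul_eq_mul] at e1
      rw [q, map_smul, smul_eq_mul] at e2
      refine ⟨mul_left_cancel₀ (sub_ne_zero.2 ne) ?_, mul_left_cancel₀ (sub_ne_zero.2 ne) ?_⟩
      · linear_combination -mx ρ g 1 1 * e1 - mx ρ g 0 0 * I (en 0 1 z) * b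
      · linear_combination mx ρ g 0 0 * e2 + mx ρ g 1 1 * I (en 1 0 z) * a
    · exact absurd k p

end Vale.Agent.P022G.Obs
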