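import Vale.Agent.P022G.Obs.Defs
import Vale.Agent.P022E.GW.Linv
import Vale.Agent.P022E.GW.Nil
import Vale.Agent.P022E.GW.LbLoc
import Vale.Agent.P022E.GW.OneC
import Vale.Agent.P022E.GW.UnrC

/-! P022G: the local global principle over the rationals with the place two omitted. -/

set_option linter.all false

noncomputable section

namespace Vale.Agent.P022G.Obs

open NumberField
open Vale.Agent.P022
open Vale.Agent.P027M.S (Inert)
open Vale.Agent.P022D.Sel (IsDec)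
open Vale.Agent.P022D.L2c (Hm Cob IsZ2 cup up)
open Vale.Agent.P022D.W (dec)
open Vale.Agent.P022E.GW
open Vale.Agent.P022E.GW.Kc (kq rt)
open scoped Pointwise

namespace Sc2

theorem n2 {a : ℕ} {P : Ideal (𝓞 Qb)} (h : Ov a P) {b : ℕ} (hb : b.Prime) (ha : a ≠ b) :
    (b : 𝓞 Qb) ∉ P := fun m => ha (One.two_pr h.1 hb h.2.1 h.2.2 m)

theorem m1 {a : ℕ} {P : Ideal (𝓞 Qb)} (h : Ov a P) (ha : a ≠ 2) {g : GQ} (hg : Inert P g) :
    kq (-1) g = 0 := by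
  have := Kc.kq_unit h.2.1 (by exact_mod_cast n2 h Nat.prime_two ha) (c := -1)
    (fun m => h.2.1.ne_top ((Ideal.eq_top_iff_one _).2 (by simpa using m))) hg (by simp)
  simpa using this

theorem m3 {a : ℕ} {P : Ideal (𝓞 Qb)} (h : Ov a P) (ha : a ≠ 2) (hb : a ≠ 3) {g : GQ}
    (hg : Inert P g) : kq ((3 : ℕ) : Qb) g = 0 :=
  Kc.kq_unit h.2.1 (by exact_mod_cast n2 h Nat.prime_two ha) (c := ((3 : ℕ) : 𝓞 Qb))
    (n2 h Nat.prime_three hb) hg (map_natCast g 3)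

theorem fr {P : Ideal (𝓞 Qb)} (h : Ov 3 P) {φ : GQ} (hφ : Fb 3 P φ) : kq (-1) φ = 1 := by
  refine (Kc.z2 _).resolve_left fun e => ?_
  have e1 := (Kc.kq_zero (Kc.rt_sq _) φ).1 e
  obtain ⟨X, hX⟩ : ∃ X : 𝓞 Qb, (X : Qb) = rt (-1) :=
    ⟨⟨rt (-1), IsIntegral.of_pow (n := 2) two_pos (by rw [Kc.rt_sq]; exact isIntegral_one.neg)⟩,
      rfl⟩
  have e2 : X ^ 2 = -1 := RingOfIntegers.ext (by
    show (X : Qb) ^ 2 = -1
    rw [hX, Kc.rt_sq])
  have e3 : φ • X = X := RingOfIntegers.ext (by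
    show φ (X : Qb) = (X : Qb)
    rw [hX, e1])
  have e4 := P.mul_mem_left (-X) (hφ X)
  rw [e3, show -X * (X - X ^ 3) = ((2 : ℕ) : 𝓞 Qb) by
    push_cast; linear_combination (X ^ 2 - 2) * e2] at e4
  exact n2 h Nat.prime_two (by norm_num) e4

theorem cc {c : GQ} (h : IsConj c) : kq ((3 : ℕ) : Qb) c = 0 := by
  obtain ⟨f, hf⟩ := h
  refine (Kc.kq_zero (Kc.rt_sq _) c).2 ((Kc.pm (Kc.rt_sq _) (map_natCast c 3)).resolve_right
    fun e => ?_)
  have e1 := Complex.mul_conj (f (rt ((3 : ℕ) : Qb)))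
  rw [← hf, e, map_neg, mul_neg, ← map_mul, ← pow_two, Kc.rt_sq, map_natCast] at e1
  have e2 := congrArg Complex.re e1
  have e3 := Complex.normSq_nonneg (f (rt ((3 : ℕ) : Qb)))
  simp only [Complex.neg_re, Complex.natCast_re, Complex.ofReal_re] at e2
  rw [← e2] at e3
  norm_num at e3

variable {F : Type} [Field F] [CharP F 2]

variable (F) in
/-- the symbol of `-1` and `3` -/
def sy : GQ → GQ → F := cup (Gy.ue F (kq (-1))) (Gy.ue F (kq ((3 : ℕ) : Qb)))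

theorem c1 (D : Subgroup GQ) : Ch D (Gy.ue F (kq (-1))) :=
  Gy.ue_hm (One.ch_kq D fun g _ => by simp)

theorem c3 (D : Subgroup GQ) : Ch D (Gy.ue F (kq ((3 : ℕ) : Qb))) :=
  Gy.ue_hm (One.ch_kq D fun g _ => map_natCast g 3)

theorem zs (D : Subgroup GQ) : Z2 D (sy F) := Lb.z2_cup (c1 D) (c3 D)

theorem isd {l : ℕ} {P : Ideal (𝓞 Qb)} (h : Ov l P) : IsDec l (dec P : Set GQ) :=
  Or.inr ⟨h.1, P, h.2.1, h.2.2, rfl⟩

theorem mv {l : ℕ} {A B : Subgroup GQ} (hA : IsDec l (A : Set GQ)) (hB : IsDec l (B : Set GQ))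
    {z : GQ → GQ → F} (hz : Z2 ⊤ z) (h : Cb (⊤ ⊓ A) z) : Cb (⊤ ⊓ B) z := by
  obtain ⟨g, hg⟩ := Lb.dec_cj hB hA
  exact cj F ⊤ A B g⁻¹ z trivial (fun x => by rw [inv_inv]; exact hg x) hz h

theorem key [Finite F] {z : GQ → GQ → F} (hz : Z2 ⊤ z)
    (h : ∀ l ≠ 2, ∀ D : Subgroup GQ, IsDec l (D : Set GQ) → Cb (⊤ ⊓ D) z) {P : Ideal (𝓞 Qb)}
    (hP : Ov 2 P) {a : F} (ha : Cb (⊤ ⊓ dec P) (z - a • sy F)) : a = 0 := by
  obtain ⟨Q, q1, q2⟩ := H916.exists_prime Nat.prime_three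
  have hQ : Ov 3 Q := ⟨Nat.prime_three, q1, q2⟩
  obtain ⟨τ, hτ⟩ := One.gn 3 Q hQ (by norm_num)
  obtain ⟨φ, hφ⟩ := P022D.W.exists_phi Nat.prime_three q1 q2
  have oT : IsOpen ((⊤ : Subgroup GQ) : Set GQ) := isOpen_univ
  have hy : Z2 ⊤ (z - a • sy F) := Gy.z2_sub hz (Gy.z2_smul a (zs ⊤))
  have k := oneC F ⊤ (z - a • sy F) Unit (fun _ => 3) (fun _ => Q) (fun _ => τ) (fun _ => φ)
    (fun _ => Gy.ue F (kq (-1))) (fun _ => (-a) • Gy.ue F (kq ((3 : ℕ) : Qb))) oT hy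
    (fun _ => ⟨hQ, by norm_num, hτ, hφ, le_top⟩) (fun _ _ _ _ _ => rfl)
    (fun _ => ⟨c1 _, Submodule.smul_mem _ (-a) (c3 (dec Q)), fun g hg => by
      simp only [Gy.ue, m1 hQ (by norm_num) hg, map_zero],
      by simp only [Gy.ue, fr hQ hφ, map_one], by
      refine One.cb_congr (One.cb_mono (le_inf le_top le_rfl) (h 3 (by norm_num) _ (isd hQ)))
        fun x _ y _ => ?_
      simp only [Pi.sub_apply, Pi.smul_apply, sy, cup, smul_eq_mul]; ring⟩)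
    (fun D hD => ?_) fun p P' hp hn => ?_
  · have t : kq ((3 : ℕ) : Qb) τ = 1 :=
      (Kc.kq_one (by norm_num) (Kc.rt_sq _) (map_natCast τ 3)).2 (hτ.2 _ (Kc.rt_sq _))
    simp only [Finset.univ_unique, Finset.sum_singleton, Pi.smul_apply, Gy.ue, t, map_one,
      smul_eq_mul, mul_one, neg_eq_zero] at k
    exact k
  · refine One.cb_congr (h 0 (by norm_num) D hD) fun x _ y hy => ?_
    obtain ⟨-, c, hc, e⟩ | ⟨l0, -⟩ := hD
    · have m : y ∈ ({1, c} : Set GQ) := e ▸ hy.2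
      have : kq ((3 : ℕ) : Qb) y = 0 := by
        rcases m with rfl | rfl
        · exact Kc.kq_id _
        · exact cc hc
      simp only [Pi.sub_apply, Pi.smul_apply, sy, cup, Gy.ue, this, map_zero, mul_zero, smul_zero,
        sub_zero]
    · exact absurd l0 Nat.not_prime_zero
  · by_cases p2 : p = 2
    · subst p2
      exact mv (isd hP) (isd hp) hy ha
    by_cases p3 : p = 3
    · subst p3
      obtain ⟨g, rfl⟩ := P027M.F.Tra.trans Nat.prime_three q1 hp.2.1 q2 hp.2.2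
      exact absurd (fun x => (Ideal.smul_mem_pointwise_smul_iff).symm) (hn () g trivial)
    refine One.cb_sub (h p p2 _ (isd hp)) (Submodule.smul_mem _ a ?_)
    exact Lb.cb_unr unrC oT hp (c1 _) (c3 _)
      (fun i _ hi => by simp only [Gy.ue, m1 hp p2 hi, map_zero])
      fun i _ hi => by simp only [Gy.ue, m3 hp p2 p3 hi, map_zero]

end Sc2

open Sc2 in
theorem sc2 : SC2 := by
  intro F _ _ _ z hz h
  obtain ⟨P, p1, p2⟩ := H916.exists_prime Nat.prime_two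
  have hP : Ov 2 P := ⟨Nat.prime_two, p1, p2⟩
  have oT : IsOpen ((⊤ : Subgroup GQ) : Set GQ) := isOpen_univ
  haveI := P027M.S.KumAux.gal
  haveI : CompactSpace (⊤ ⊓ dec P : Subgroup GQ) :=
    isCompact_iff_compactSpace.1 (Unr.closed oT P).isCompact
  obtain ⟨inv, i1, i2, -⟩ := Gy.ex_inv F (X := (⊤ ⊓ dec P : Subgroup GQ)) fun V hV =>
    have k := Nil.ni_sub Nat.prime_two p1 p2 ⊤ oT V hV
    ⟨k.1, Gy.three_of (by have := k.2; omega)⟩
  have s0 : inv (rs _ (sy F)) ≠ 0 := fun e => by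
    refine one_ne_zero (key (F := F) (z := 0) (Gy.cob_z2 (zero_mem _))
      (fun _ _ _ _ => zero_mem _) hP (a := 1) ?_)
    rw [one_smul]
    exact One.cb_sub (z := 0) (zero_mem _) (i2 _ (zs _) e)
  have z2 : Z2 (⊤ ⊓ dec P) z := One.z2_mono le_top hz
  have a0 := key hz h hP (a := inv (rs _ z) / inv (rs _ (sy F)))
    (i2 _ (Gy.z2_sub z2 (Gy.z2_smul _ (zs _))) (by
      show inv (rs _ z - (inv (rs _ z) / inv (rs _ (sy F))) • rs (⊤ ⊓ dec P) (sy F)) = 0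
      rw [map_sub, map_smul, smul_eq_mul, div_mul_cancel₀ _ s0, sub_self]))
  refine hasseCC F ⊤ z oT hz fun l D hD => ?_
  by_cases l2 : l = 2
  · subst l2
    exact mv (isd hP) hD hz (i2 _ z2 ((div_eq_zero_iff.1 a0).resolve_right s0))
  · exact h l l2 D hD

end Vale.Agent.P022G.Obs
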