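import Vale.Agent.P022G.Obs.Loc
import Vale.Agent.P022E.GW.All0

/-!
# P022G, the cohomological input of the presentation
-/

set_option linter.all false

noncomputable section

namespace Vale.Agent.P022G.Obs

open NumberField
open Vale.Agent.P022 Vale.Agent.P022.H443
open Vale.Agent.P027M.S (Inert mx)
open Vale.Agent.P022D.Sel (M2 IsDec)
open Vale.Agent.P022D.L2c (Hm Cob IsZ2 cup up)
open Vale.Agent.P022D.W (dec)
open Vale.Agent.P022E.GW
open Vale.Agent.P022G.Pres (Zc Bd Cb0 COH)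

variable {F : Type} [Field F] [CharP F 2]
variable {ρ : GQ →* GL (Fin 2) F} {H : Subgroup GQ} {T : Finset ℕ} {z : GQ → GQ → M2 F}

theorem en_def (i j : Fin 2) (z : GQ → GQ → M2 F) (x y : GQ) : en i j z x y = z x y i j := rfl

theorem off (hz : Zc ρ T z) (h0 : 0 ∈ T) {V D : Subgroup GQ} (hV : IsOpen (V : Set GQ)) {l : ℕ}
    (hl : l ∉ T) (hD : IsDec l (D : Set GQ)) {i j : Fin 2} (h : Z2 (V ⊓ D) (en i j z)) :
    Cb (V ⊓ D) (en i j z) := by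
  obtain ⟨l0, -⟩ | ⟨lp, P, p0, p1, e⟩ := hD
  · exact absurd (l0 ▸ h0) hl
  obtain rfl : D = dec P := SetLike.coe_injective e
  obtain ⟨U, -, -, hU, -, k⟩ := hz.inf
  refine unrC F V l P _ hV ⟨lp, p0, p1⟩ h fun g _ h _ s _ hs => ?_
  have := k s (hU l hl P ⟨lp, p0, p1⟩ s hs) g h
  exact ⟨congrFun (congrFun this.1 i) j, congrFun (congrFun this.2 i) j⟩

/-- **the global splitting** -/
theorem glob [Finite F] (hd : Dz ρ H) (hz : Zc ρ T z) (fK : FX ρ.ker T) (fT : FX ⊤ T)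
    (a : Cb ρ.ker (en 0 1 z)) (b : Cb ρ.ker (en 1 0 z)) (s : Cb ⊤ (en 0 0 z)) :
    ∃ e : GQ → M2 F, Bd ρ ⊤ z e ∧ Op e ∧ Ur T e := by
  classical
  have := galQb
  haveI : Finite (GQ ⧸ ρ.ker) := ρ.ker.quotient_finite_of_isOpen hd.opn
  haveI : Fintype (GQ ⧸ ρ.ker) := Fintype.ofFinite _
  obtain ⟨U, Un, Uo, hU, Uk, k⟩ := hz.inf
  have z0 : ∀ u ∈ U, ∀ g, z g u = 0 ∧ z u g = 0 := fun u hu g => by
    have e1 := (k u hu g 1).2
    have e2 := (k u hu 1 g).1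
    rw [one_mul] at e1 e2
    exact ⟨e1.trans (hz.one g).2, e2.trans (hz.one g).1⟩
  have hi : ∀ i j, ∀ l ∉ T, ∀ P, Ov l P → ∀ u, Inert P u → ∀ g,
      en i j z g u = 0 ∧ en i j z u g = 0 := fun i j l hl P hP u hu g =>
    ⟨congrFun (congrFun (z0 u (hU l hl P hP u hu) g).1 i) j,
      congrFun (congrFun (z0 u (hU l hl P hP u hu) g).2 i) j⟩
  have h1 : ∀ i j, en i j z 1 1 = 0 := fun i j => congrFun (congrFun (hz.one 1).1 i) j
  have mem : ∀ l ∉ T, ∀ P, Ov l P → ∀ u, Inert P u → u ∈ ρ.ker := fun l hl P hP u hu =>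
    Uk u (hU l hl P hP u hu)
  obtain ⟨w, w1, ⟨A, Ao, An, w2⟩, w3⟩ := fix fK _ a (h1 0 1) mem (hi 0 1)
  obtain ⟨v, v1, ⟨B, Bo, Bn, v2⟩, v3⟩ := fix fK _ b (h1 1 0) mem (hi 1 0)
  obtain ⟨x, x1, ⟨C, Co, -, x2⟩, x3⟩ := fix fT _ s (h1 0 0) (fun _ _ _ _ _ _ => trivial) (hi 0 0)
  obtain ⟨c, hc⟩ := hd.ex_c
  obtain ⟨y, y1, y2, y3⟩ := avg two_m ρ.ker (ac ρ) ac_mul ac_ker z (coc hz) (ee c)
    (fun g => !![0, w g; c * v g, 0]) (fun p hp q hq => by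
      rw [w1 p hp q hq, v1 p hp q hq, ee_def]
      ext i j
      fin_cases i <;> fin_cases j <;> simp [en_def, mul_add])
    (LinearMap.ker (Matrix.traceLinearMap (Fin 2) F F))
    (fun g m hm => (ac_tr g m).trans hm) (fun m => by simp [ee_def]) (fun p => by simp)
  have zz : ∀ g, w g = 0 → v g = 0 → (!![0, w g; c * v g, 0] : M2 F) = 0 := fun g p q => by
    rw [p, q]
    ext i j
    fin_cases i <;> fin_cases j <;> simp
  refine ⟨fun g => y g + x g • (1 : M2 F), ⟨fun g _ => ?_, fun g _ h _ => ?_⟩,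
    ⟨U ⊓ A ⊓ B ⊓ C, ((Uo.inter Ao).inter Bo).inter Co, fun σ hσ => ?_⟩,
    fun l hl P hP u hu => ?_⟩
  · have : (y g).trace = 0 := y2 g
    rw [Matrix.trace_add, this, Matrix.trace_fin_two, zero_add]
    exact CharTwo.add_self_eq_zero _
  · have e : z g h = !![0, z g h 0 1; z g h 1 0, 0] + en 0 0 z g h • (1 : M2 F) := by
      have := tr0 (hz.tr g h)
      ext i j
      fin_cases i <;> fin_cases j <;> simp [en_def, this]
    have e1 : ac ρ g (1 : M2 F) = 1 := by rw [ac_def, mul_one, mx_inv]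
    simp only
    rw [← ac_def, map_add, map_smul, e1, y1, hc, x1 g trivial h trivial, add_smul, add_smul]
    conv_rhs => rw [e]
    abel
  · simp only
    rw [x2 σ trivial hσ.2, zero_smul, add_zero]
    refine y3 σ (Uk σ hσ.1.1.1) fun g => ?_
    have m := Un.conj_mem σ hσ.1.1.1 g
    exact ⟨(z0 σ hσ.1.1.1 g).1, (z0 _ m g).2, zz _ (w2 _ (Uk _ m) (An.conj_mem σ hσ.1.1.2 g))
      (v2 _ (Uk _ m) (Bn.conj_mem σ hσ.1.2 g))⟩
  · simp only
    rw [x3 l hl P hP u hu, zero_smul, add_zero]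
    refine y3 u (mem l hl P hP u hu) fun g => ?_
    obtain ⟨P', hP', q⟩ := Lf86.inert_cj hP g
    have m := hU l hl P hP u hu
    exact ⟨(z0 u m g).1, (z0 _ (Un.conj_mem u m g) g).2,
      zz _ (w3 l hl P' hP' _ (q u hu)) (v3 l hl P' hP' _ (q u hu))⟩

/-- from the places of `T` to the global splitting -/
theorem hass [Finite F] (hS : SC2) (hd : Dz ρ H) (hz : Zc ρ T z) (fK : FX ρ.ker T) (fT : FX ⊤ T)
    (h0 : 0 ∈ T) {D : ℕ → Subgroup GQ} (hD : ∀ l ∈ T, IsDec l (D l : Set GQ))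
    (a : ∀ l ∈ T, Bo ρ (D l) z) (s : ∀ l ∈ T, l ≠ 2 → Cb (⊤ ⊓ D l) (en 0 0 z)) :
    ∃ e : GQ → M2 F, Bd ρ ⊤ z e ∧ Op e ∧ Ur T e := by
  have k : ∀ l (D' : Subgroup GQ), IsDec l (D' : Set GQ) → Bo ρ D' z := fun l D' h => by
    by_cases hl : l ∈ T
    · obtain ⟨g, hg⟩ := Lb.dec_cj (hD l hl) h
      exact (a l hl).cj hd hz hg
    · exact ⟨off hz h0 hd.opn hl h (z2K hz inf_le_left 0 1),
        off hz h0 hd.opn hl h (z2K hz inf_le_left 1 0)⟩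
  refine glob hd hz fK fT
    (hasseCC F _ _ hd.opn (z2K hz le_rfl 0 1) fun l D' h => (k l D' h).1)
    (hasseCC F _ _ hd.opn (z2K hz le_rfl 1 0) fun l D' h => (k l D' h).2)
    (hS F _ (z2T hd hz ⊤) fun l l2 D' h => ?_)
  by_cases hl : l ∈ T
  · obtain ⟨g, hg⟩ := Lb.dec_cj (hD l hl) h
    refine cj F ⊤ (D l) D' g _ trivial (fun x => ?_) (z2T hd hz ⊤) (s l hl l2)
    have := hg (g * x * g⁻¹)
    rw [show g⁻¹ * (g * x * g⁻¹) * g = x by group] at this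
    exact this.symm
  · exact off hz h0 isOpen_univ hl h (z2T hd hz _)

theorem coh_of {κ : Type} [Fintype κ] {DD : Set (Subgroup GQ)} {N : ℕ} (hN : Fintype.card κ ≤ N)
    (Θ : κ → (GQ → GQ → M2 F) →ₗ[F] F)
    (h : ∀ z, Zc ρ T z → (∀ D ∈ DD, Cb0 ρ D z) → (∀ k, Θ k z = 0) →
      ∃ e : GQ → M2 F, Bd ρ ⊤ z e ∧ Op e ∧ Ur T e) : COH ρ T DD N := by
  classical
  obtain ⟨f⟩ : Nonempty (κ ↪ Fin N) :=
    Function.Embedding.nonempty_of_card_le (by rwa [Fintype.card_fin])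
  refine ⟨LinearMap.pi (Function.extend f Θ 0), fun z hz hD k => h z hz hD fun a => ?_⟩
  have := congrFun k (f a)
  rwa [LinearMap.pi_apply, f.injective.extend_apply] at this

/-- **row OBS** -/
theorem obs_of (hS : SC2) : OBS := by
  intro F _ _ _ ρ H T B D n DD N hd fK fT h0 b0 hD hB hn hN
  have ne : ∀ l ∈ T \ B, l ≠ 0 := fun l hl e => (Finset.mem_sdiff.1 hl).2 (e ▸ b0)
  choose J hJ using fun l : (T \ B : Finset ℕ) => ex_J hd T (ne l l.2)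
    (hD l (Finset.mem_sdiff.1 l.2).1) (hn l (Finset.mem_sdiff.1 l.2).1 (Finset.mem_sdiff.1 l.2).2)
  choose I i0 i1 i2 using fun l : ((T \ B).erase 2 : Finset ℕ) => ex_I F (V := ⊤) isOpen_univ
    (ne l (Finset.mem_erase.1 l.2).2) (hD l (Finset.mem_sdiff.1 (Finset.mem_erase.1 l.2).2).1)
  refine coh_of (κ := (Σ l : (T \ B : Finset ℕ), Fin (n l)) ⊕ ((T \ B).erase 2 : Finset ℕ)) ?_
    (Sum.elim (fun p => J p.1 p.2) fun l => I l ∘ₗ en 0 0) fun z hz hc k => ?_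
  · rw [Fintype.card_sum, Fintype.card_sigma, Fintype.card_coe]
    simp only [Fintype.card_fin]
    rwa [Finset.sum_coe_sort (T \ B) n]
  · refine hass hS hd hz fK fT h0 hD (fun l hl => ?_) fun l hl l2 => ?_
    · by_cases m : l ∈ B
      · exact bo_of (hc _ (hB l hl m))
      · exact hJ ⟨l, Finset.mem_sdiff.2 ⟨hl, m⟩⟩ z hz fun j => k (Sum.inl ⟨_, j⟩)
    · by_cases m : l ∈ B
      · exact sc_of hd (hc _ (hB l hl m))
      · exact i1 ⟨l, Finset.mem_erase.2 ⟨l2, Finset.mem_sdiff.2 ⟨hl, m⟩⟩⟩ _ (z2T hd hz _)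
          (k (Sum.inr _))

end Vale.Agent.P022G.Obs
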