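import Vale.Agent.P022G.Obs.Defs

/-!
# P022G, the transfer from the kernel of the residual representation
-/

set_option linter.all false

noncomputable section

namespace Vale.Agent.P022G.Obs

open Vale.Agent.P022
open Vale.Agent.P027M.S (Inert mx)
open Vale.Agent.P022D.Sel (M2)

variable {F : Type} [Field F]

section

variable {X M : Type} [Group X] [AddCommGroup M] [Module F M]

/-- **the transfer** -/
theorem avg (two : ∀ m : M, m + m = 0) (K : Subgroup X) [Fintype (X ⧸ K)] (a : X → M →ₗ[F] M)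
    (hm : ∀ g h m, a (g * h) m = a g (a h m)) (h1 : ∀ p ∈ K, ∀ m, a p m = m) [hn : K.Normal]
    (o : X → X → M) (ho : ∀ g h k, a g (o h k) + o g (h * k) = o (g * h) k + o g h)
    (e : M →ₗ[F] M) (w : X → M) (hw : ∀ p ∈ K, ∀ q ∈ K, w (p * q) = w p + w q + e (o p q))
    (N : Submodule F M) (n1 : ∀ g, ∀ m ∈ N, a g m ∈ N) (n2 : ∀ m, e m ∈ N) (n3 : ∀ p, w p ∈ N) :
    ∃ y : X → M, (∀ g h, y (g * h) = y g + a g (y h) +
        ∑ q : X ⧸ K, a q.out (e (a q.out⁻¹ (o g h)))) ∧ (∀ g, y g ∈ N) ∧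
      ∀ i ∈ K, (∀ g, o g i = 0 ∧ o (g * i * g⁻¹) g = 0 ∧ w (g * i * g⁻¹) = 0) → y i = 0 := by
  classical
  have ng : ∀ m : M, -m = m := fun m => neg_eq_of_add_eq_zero_left (two m)
  let s : X → X := fun x => ((x⁻¹ : X) : X ⧸ K).out
  have s1 : ∀ x, x * s x ∈ K := fun x => by
    have := QuotientGroup.eq.1 (QuotientGroup.out_eq' ((x⁻¹ : X) : X ⧸ K)).symm
    rwa [inv_inv] at this
  have s2 : ∀ p ∈ K, ∀ x, s (p * x) = s x := fun p hp x => by
    have : (((p * x)⁻¹ : X) : X ⧸ K) = ((x⁻¹ : X) : X ⧸ K) := by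
      rw [QuotientGroup.eq]; simpa using hp
    simp only [s, this]
  have eo : ∀ g h k, e (o g (h * k)) = e (o (g * h) k) + e (o g h) - e (a g (o h k)) :=
    fun g h k => by rw [← map_add, ← ho, map_add]; abel
  let u : X → M := fun x => w (x * s x) + e (o (x * s x) (s x)⁻¹)
  have hu : ∀ p ∈ K, ∀ x, u (p * x) = w p + u x + e (o p x) := fun p hp x => by
    have k := eo p (x * s x) (s x)⁻¹
    rw [h1 p hp, mul_inv_cancel_right] at k
    simp only [u]
    rw [s2 p hp, mul_assoc, hw p hp _ (s1 x), k]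
    abel
  let W : X → X → M := fun x h => a x⁻¹ (e (o x h) + u x + u (x * h))
  have hW : ∀ p ∈ K, ∀ x h, W (p * x) h = W x h := fun p hp x h => by
    have k := eo p x h
    rw [h1 p hp] at k
    simp only [W]
    rw [mul_inv_rev, hm, h1 _ (K.inv_mem hp), mul_assoc p, hu p hp, hu p hp, k]
    congr 1
    rw [← sub_eq_zero, ← two (w p + e (o p x) + e (o (p * x) h) - e (o x h))]
    abel
  have hW2 : ∀ x h k, W x (h * k) = W x h + a h (W (x * h) k) + a x⁻¹ (e (a x (o h k))) :=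
    fun x h k => by
      simp only [W]
      rw [← hm, show h * (x * h)⁻¹ = x⁻¹ by group, ← map_add, ← map_add, eo, mul_assoc x h k]
      congr 1
      rw [← sub_eq_zero, ← neg_eq_zero, ← two (u (x * h) + e (a x (o h k)))]
      abel
  refine ⟨fun h => ∑ q : X ⧸ K, W q.out⁻¹ h, fun g h => ?_, fun g => ?_, fun i iK hi => ?_⟩
  · have k : ∑ q : X ⧸ K, W (q.out⁻¹ * g) h = ∑ q : X ⧸ K, W q.out⁻¹ h := by
      refine Fintype.sum_equiv (MulAction.toPerm g⁻¹) _ _ fun q => ?_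
      have m : q.out⁻¹ * g * (g⁻¹ • q).out ∈ K := by
        have : ((g⁻¹ * q.out : X) : X ⧸ K) = ((g⁻¹ • q).out : X) := by
          rw [QuotientGroup.out_eq']
          exact MulAction.Quotient.mk_smul_out K g⁻¹ q
        simpa using QuotientGroup.eq.1 this
      rw [MulAction.toPerm_apply, ← hW _ m (g⁻¹ • q).out⁻¹, mul_inv_cancel_right]
    simp only [hW2]
    rw [Finset.sum_add_distrib, Finset.sum_add_distrib, ← map_sum, k]
    simp only [inv_inv]
  · have nu : ∀ x, u x ∈ N := fun x => N.add_mem (n3 _) (n2 _)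
    exact N.sum_mem fun q _ => n1 _ _ (N.add_mem (N.add_mem (n2 _) (nu _)) (nu _))
  · refine Finset.sum_eq_zero fun q _ => ?_
    obtain ⟨b, c, d⟩ := hi q.out⁻¹
    have k := hu _ (hn.conj_mem i iK q.out⁻¹) q.out⁻¹
    rw [inv_mul_cancel_right, c, d] at k
    simp only [W]
    rw [b, k, map_zero, zero_add, add_zero, two, map_zero]

/-- conjugation of a cocycle on the kernel of the action -/
theorem cjid (two : ∀ m : M, m + m = 0) (K : Subgroup X) (a : X → M →ₗ[F] M)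
    (h1 : ∀ p ∈ K, ∀ m, a p m = m) [hn : K.Normal]
    (o : X → X → M) (ho : ∀ g h k, a g (o h k) + o g (h * k) = o (g * h) k + o g h) (g : X)
    {x y : X} (hx : x ∈ K) :
    o (g * (x * y) * g⁻¹) g + o g (x * y) = (o (g * x * g⁻¹) g + o g x) +
      (o (g * y * g⁻¹) g + o g y) + (o (g * x * g⁻¹) (g * y * g⁻¹) + a g (o x y)) := by
  have e1 := ho (g * x * g⁻¹) (g * y * g⁻¹) g
  have e2 := ho (g * x * g⁻¹) g y
  have e3 := ho g x y
  rw [h1 _ (hn.conj_mem x hx g), inv_mul_cancel_right] at e1 e2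
  rw [show g * x * g⁻¹ * (g * y * g⁻¹) = g * (x * y) * g⁻¹ by group] at e1
  linear_combination (norm := abel) e2 - e1 + e3 +
    two (o (g * x) y - o (g * x * g⁻¹) (g * y * g⁻¹) - o g y - a g (o x y))

end

/-- the adjoint action -/
def ac (ρ : GQ →* GL (Fin 2) F) (g : GQ) : M2 F →ₗ[F] M2 F where
  toFun m := mx ρ g * m * mx ρ g⁻¹
  map_add' a b := by rw [mul_add, add_mul]
  map_smul' c a := by rw [mul_smul_comm, smul_mul_assoc]; rfl

variable {ρ : GQ →* GL (Fin 2) F} {H : Subgroup GQ}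

theorem ac_def (g : GQ) (m : M2 F) : ac ρ g m = mx ρ g * m * mx ρ g⁻¹ := rfl

theorem mx_mul (g h : GQ) : mx ρ (g * h) = mx ρ g * mx ρ h := by
  simp only [mx, map_mul, Units.val_mul]

theorem mx_ker {g : GQ} (h : g ∈ ρ.ker) : mx ρ g = 1 := by
  simp only [mx, MonoidHom.mem_ker.1 h, Units.val_one]

theorem ac_mul (g h : GQ) (m : M2 F) : ac ρ (g * h) m = ac ρ g (ac ρ h m) := by
  simp only [ac_def, mul_inv_rev, mx_mul, mul_assoc]

theorem ac_ker (p : GQ) (h : p ∈ ρ.ker) (m : M2 F) : ac ρ p m = m := by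
  rw [ac_def, mx_ker h, mx_ker (inv_mem h), one_mul, mul_one]

theorem mx_inv (g : GQ) : mx ρ g * mx ρ g⁻¹ = 1 := by
  rw [← mx_mul, mul_inv_cancel, mx_ker (one_mem _)]

theorem ac_tr (g : GQ) (m : M2 F) : (ac ρ g m).trace = m.trace := by
  rw [ac_def, Matrix.trace_mul_cycle, ← inv_inv g, inv_inv g⁻¹, mx_inv, one_mul]

theorem Dz.le (h : Dz ρ H) : ρ.ker ≤ H := fun g hg => by
  by_contra n
  have := (h.ad g n).1
  rw [mx_ker hg] at this
  simpa using this

theorem Dz.in1 (h : Dz ρ H) {g : GQ} (hg : g ∈ H) :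
    mx ρ g 0 0 * mx ρ g⁻¹ 0 0 = 1 ∧ mx ρ g 1 1 * mx ρ g⁻¹ 1 1 = 1 := by
  have a := congrFun (congrFun (mx_inv (ρ := ρ) g) 0) 0
  have b := congrFun (congrFun (mx_inv (ρ := ρ) g) 1) 1
  simp only [Matrix.mul_apply, Fin.sum_univ_two, (h.dg g hg).1, (h.dg g hg).2, zero_mul, add_zero,
    zero_add, Matrix.one_apply_eq] at a b
  exact ⟨a, b⟩

theorem Dz.out1 (h : Dz ρ H) {g : GQ} (hg : g ∉ H) :
    mx ρ g 0 1 * mx ρ g⁻¹ 1 0 = 1 ∧ mx ρ g 1 0 * mx ρ g⁻¹ 0 1 = 1 := by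
  have a := congrFun (congrFun (mx_inv (ρ := ρ) g) 0) 0
  have b := congrFun (congrFun (mx_inv (ρ := ρ) g) 1) 1
  simp only [Matrix.mul_apply, Fin.sum_univ_two, (h.ad g hg).1, (h.ad g hg).2, zero_mul, add_zero,
    zero_add, Matrix.one_apply_eq] at a b
  exact ⟨a, b⟩

theorem Dz.acin (h : Dz ρ H) {g : GQ} (hg : g ∈ H) (m : M2 F) :
    ac ρ g m = !![m 0 0, mx ρ g 0 0 * mx ρ g⁻¹ 1 1 * m 0 1;
      mx ρ g 1 1 * mx ρ g⁻¹ 0 0 * m 1 0, m 1 1] := by
  obtain ⟨a, b⟩ := h.in1 hg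
  obtain ⟨c, d⟩ := h.dg g hg
  obtain ⟨e, f⟩ := h.dg _ (inv_mem hg)
  ext i j
  fin_cases i <;> fin_cases j <;>
    simp [ac_def, Matrix.mul_apply, Fin.sum_univ_two, c, d, e, f]
  · linear_combination m 0 0 * a
  · ring
  · ring
  · linear_combination m 1 1 * b

theorem Dz.acout (h : Dz ρ H) {g : GQ} (hg : g ∉ H) (m : M2 F) :
    ac ρ g m = !![m 1 1, mx ρ g 0 1 * mx ρ g⁻¹ 0 1 * m 1 0;
      mx ρ g 1 0 * mx ρ g⁻¹ 1 0 * m 0 1, m 0 0] := by
  obtain ⟨a, b⟩ := h.out1 hg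
  obtain ⟨c, d⟩ := h.ad g hg
  obtain ⟨e, f⟩ := h.ad g⁻¹ fun k => hg (inv_mem_iff.1 k)
  ext i j
  fin_cases i <;> fin_cases j <;>
    simp [ac_def, Matrix.mul_apply, Fin.sum_univ_two, c, d, e, f]
  · linear_combination m 1 1 * a
  · ring
  · ring
  · linear_combination m 0 0 * b

/-- the weighted projection to the entries off the diagonal -/
def ee (c : F) : M2 F →ₗ[F] M2 F where
  toFun m := !![0, m 0 1; c * m 1 0, 0]
  map_add' a b := by ext i j; fin_cases i <;> fin_cases j <;> simp [mul_add]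
  map_smul' r a := by ext i j; fin_cases i <;> fin_cases j <;> simp [mul_left_comm]

theorem ee_def (c : F) (m : M2 F) : ee c m = !![0, m 0 1; c * m 1 0, 0] := rfl

open Classical in
theorem Dz.ace (h : Dz ρ H) (c : F) (g : GQ) (m : M2 F) : ac ρ g (ee c (ac ρ g⁻¹ m)) =
    (if g ∈ H then (1 : F) else 0) • !![0, m 0 1; c * m 1 0, 0] +
      (if g ∈ H then (0 : F) else 1) • !![0, c * m 0 1; m 1 0, 0] := by
  split_ifs with hg
  · obtain ⟨a, b⟩ := h.in1 hg
    rw [h.acin hg, ee_def, h.acin (inv_mem hg), inv_inv]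
    ext i j
    fin_cases i <;> fin_cases j <;> simp
    · linear_combination (mx ρ g 1 1 * mx ρ g⁻¹ 1 1 * m 0 1) * a + m 0 1 * b
    · linear_combination (mx ρ g 1 1 * mx ρ g⁻¹ 1 1 * c * m 1 0) * a + c * m 1 0 * b
  · obtain ⟨a, b⟩ := h.out1 hg
    rw [h.acout hg, ee_def, h.acout fun k => hg (inv_mem_iff.1 k), inv_inv]
    ext i j
    fin_cases i <;> fin_cases j <;> simp
    · linear_combination (mx ρ g 1 0 * mx ρ g⁻¹ 0 1 * c * m 0 1) * a + c * m 0 1 * b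
    · linear_combination (mx ρ g 1 0 * mx ρ g⁻¹ 0 1 * m 1 0) * a + m 1 0 * b

variable [CharP F 2]

open Classical in
theorem Dz.cnt (h : Dz ρ H) [Fintype (GQ ⧸ ρ.ker)] :
    ∑ q : GQ ⧸ ρ.ker, (if q.out ∈ H then (1 : F) else 0) = 1 := by
  have mk : ∀ x : GQ, (x : GQ ⧸ ρ.ker).out ∈ H ↔ x ∈ H := fun x => by
    obtain ⟨k, hk⟩ := QuotientGroup.mk_out_eq_mul ρ.ker x
    rw [hk]
    exact H.mul_mem_cancel_right (h.le k.2)
  rw [← Finset.add_sum_erase _ _ (Finset.mem_univ 1),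
    if_pos (show (1 : GQ ⧸ ρ.ker).out ∈ H from (mk 1).2 H.one_mem), add_eq_left]
  refine Finset.sum_involution (fun q _ => q⁻¹) (fun q _ => ?_) (fun q hq n e => ?_)
    (fun q hq => ?_) fun q _ => inv_inv q
  · obtain ⟨x, rfl⟩ := QuotientGroup.mk_surjective q
    rw [← QuotientGroup.mk_inv]
    simp only [mk, inv_mem_iff]
    exact CharTwo.add_self_eq_zero _
  · obtain ⟨x, rfl⟩ := QuotientGroup.mk_surjective q
    have xH : x ∈ H := by
      by_contra k
      exact n (if_neg fun m => k ((mk x).1 m))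
    have k : x * x ∈ ρ.ker := by
      rw [← QuotientGroup.eq_one_iff, QuotientGroup.mk_mul]
      exact mul_eq_one_iff_eq_inv.2 e.symm
    have k1 := mx_ker k
    rw [mx_mul] at k1
    have a := congrFun (congrFun k1 0) 0
    have b := congrFun (congrFun k1 1) 1
    obtain ⟨c, d⟩ := h.dg x xH
    simp only [Matrix.mul_apply, Fin.sum_univ_two, c, d, zero_mul, add_zero, zero_add,
      Matrix.one_apply_eq, mul_self_eq_one_iff, CharTwo.neg_eq, or_self] at a b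
    refine (Finset.mem_erase.1 hq).1 ((QuotientGroup.eq_one_iff x).2 (Units.ext ?_))
    show mx ρ x = 1
    ext i j
    fin_cases i <;> fin_cases j <;> simp [a, b, c, d]
  · exact Finset.mem_erase.2 ⟨inv_ne_one.2 (Finset.mem_erase.1 hq).1, Finset.mem_univ _⟩

theorem Dz.ex_c (h : Dz ρ H) [Fintype (GQ ⧸ ρ.ker)] : ∃ c : F, ∀ m : M2 F,
    ∑ q : GQ ⧸ ρ.ker, ac ρ q.out (ee c (ac ρ q.out⁻¹ m)) = !![0, m 0 1; m 1 0, 0] := by
  classical
  have two : (2 : F) = 0 := CharTwo.two_eq_zero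
  obtain ⟨n, hn⟩ : ∃ n : F, n = ∑ q : GQ ⧸ ρ.ker, (if q.out ∈ H then (0 : F) else 1) := ⟨_, rfl⟩
  have n2 : n ^ 2 = n := by
    rw [hn, CharTwo.sum_sq]
    exact Finset.sum_congr rfl fun q _ => by split_ifs <;> simp
  refine ⟨1 + n, fun m => ?_⟩
  simp only [h.ace]
  rw [Finset.sum_add_distrib, ← Finset.sum_smul, ← Finset.sum_smul, ← hn]
  rw [show (∑ q : GQ ⧸ ρ.ker, (if q.out ∈ H then (1 : F) else 0)) = 1 by convert h.cnt]
  ext i j
  fin_cases i <;> fin_cases j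
  · simp
  · show 1 * m 0 1 + n * ((1 + n) * m 0 1) = m 0 1
    linear_combination m 0 1 * n2 + n * m 0 1 * two
  · show 1 * ((1 + n) * m 1 0) + n * m 1 0 = m 1 0
    linear_combination n * m 1 0 * two
  · simp

theorem two_m (m : M2 F) : m + m = 0 := by
  ext i j
  exact CharTwo.add_self_eq_zero _

theorem tr0 {m : M2 F} (h : m.trace = 0) : m 1 1 = m 0 0 := by
  rw [Matrix.trace_fin_two, CharTwo.add_eq_zero] at h
  exact h.symm

theorem Dz.ac00 (h : Dz ρ H) (g : GQ) {m : M2 F} (k : m.trace = 0) : ac ρ g m 0 0 = m 0 0 := by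
  by_cases hg : g ∈ H
  · rw [h.acin hg]; rfl
  · rw [h.acout hg]; exact tr0 k

end Vale.Agent.P022G.Obs
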